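import Vale.Agent.P181.RH.Defs
import Vale.Agent.P181.RV.Defs

set_option autoImplicit false

/-!
# P181, RH: `CoreRA` from `RV.CorV`
-/

namespace Vale.Agent.P181.RH.H968

open Vale.Agent.P181.H280 (plethMult)

/-- **[CORE-A]** -/
theorem coreRA_of (h : RV.CorV) : CoreRA := by
  intro δ hδ _
  obtain ⟨q, hq⟩ := exists_nat_ge (1 / δ)
  have hq0 : (0 : ℝ) < q := lt_of_lt_of_le (by positivity) hq
  have hq1 : 1 ≤ q := by exact_mod_cast Nat.pos_of_ne_zero fun h0 => by simp [h0] at hq0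
  have hqδ : 1 ≤ q * δ := by
    rw [div_le_iff₀ hδ] at hq
    exact hq
  obtain ⟨a₀, h⟩ := h q hq1
  refine ⟨200 * q, max (2 * q) a₀, ?_⟩
  intro a b X m n lam hX hXa hanti hsum hna hab hbX hm hmX hmn hrow
  have hX1 : 2 * q ≤ X := (le_max_left _ _).trans hX
  have hX2 : a₀ ≤ X := (le_max_right _ _).trans hX
  have hX0 : 1 ≤ X := by omega
  have haX : X ≤ a := by
    calc X = X ^ 1 := (pow_one X).symm
      _ ≤ X ^ (200 * q) := Nat.pow_le_pow_right hX0 (by omega)
      _ ≤ a := hXa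
  have hqb : (q + 1) * a ≤ q * b := by
    have h1 : ((q : ℝ) + 1) * a ≤ q * b := by
      have h2 : (q : ℝ) * ((1 + δ) * a) ≤ q * b := mul_le_mul_of_nonneg_left hab hq0.le
      have h3 : (1 : ℝ) * a ≤ q * δ * a := mul_le_mul_of_nonneg_right hqδ (Nat.cast_nonneg a)
      linarith
    exact_mod_cast h1
  have hm2 : m ≤ X ^ 2 := by
    calc m ≤ X := hmX
      _ = X * 1 := (mul_one X).symm
      _ ≤ X * X := Nat.mul_le_mul_left _ hX0
      _ = X ^ 2 := by ring
  exact h a b X m n lam (hX2.trans haX) hanti hsum hna hX1 hXa hqb hbX hm hmn hm2 hrow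

end Vale.Agent.P181.RH.H968
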